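import Vale.Agent.P128.B2.Step

/-! P128 block B2: lower density bound. Interface; see notes/P128.md. -/

namespace Vale.Agent.P128

open MeasureTheory Set Metric Filter Topology
open scoped ENNReal

/-- Small normalized energy at one scale gives small length at all smaller scales. -/
theorem b2_iter : ∃ δ ε₀ : ℝ, 0 < δ ∧ 0 < ε₀ ∧
    ∀ (Ω : Set ℂ) (ε : ℝ) (wk : Prop) (u : ℂ → ℝ) (K : Set ℂ), AM0 Ω ε wk u K →
      (∀ y r, 0 < r → closedBall y r ⊆ Ω → ε * √r ≤ ε₀) →
      ∀ (y : ℂ) (ρ : ℝ), 0 < ρ → closedBall y ρ ⊆ Ω → D u K y ρ + lenc K y ρ ≤ δ * ρ →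
      ∀ s, 0 < s → s ≤ ρ → μH[1] (K ∩ ball y s) ≤ ENNReal.ofReal (s / 4) := by
  obtain ⟨τ, C, t0, t1, hC, H⟩ := b2_step (lam := 1 / 2) (by norm_num)
  refine ⟨τ / 4, τ * τ / (8 * C), by positivity, by positivity,
    fun Ω ε wk u K h hε y ρ hρ hB h0 s s0 s1 => ?_⟩
  have hp : ∀ k : ℕ, 0 < τ ^ k * ρ := fun k => by positivity
  have hb : ∀ k : ℕ, closedBall y (τ ^ k * ρ) ⊆ Ω := fun k =>
    (closedBall_subset_closedBall (mul_le_of_le_one_left hρ.le (pow_le_one₀ t0.le t1.le))).trans hB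
  have key : ∀ k : ℕ, D u K y (τ ^ k * ρ) + lenc K y (τ ^ k * ρ) ≤ τ / 4 * (τ ^ k * ρ) := by
    intro k
    induction k with
    | zero => simpa using h0
    | succ k ih =>
      rw [pow_succ', mul_assoc]
      have h1 := hp k
      have h2 := hb k
      generalize τ ^ k * ρ = r at ih h1 h2 ⊢
      obtain ⟨-, -, -, -, -, a1, a2, a3, -⟩ := h.upper_real h1 h2
      have h3 := H Ω ε wk u K h y r h1 h2 (by linarith)
      have h4 : C * (ε * √r) * r ≤ C * (τ * τ / (8 * C)) * r := by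
        have := hε y r h1 h2
        gcongr
      have h5 : C * (τ * τ / (8 * C)) * r = τ * τ * r / 8 := by field_simp
      have h6 : τ * D u K y r ≤ τ * (τ / 4 * r) := mul_le_mul_of_nonneg_left (by linarith) t0.le
      linarith
  obtain ⟨k, k1, k2⟩ := exists_nat_pow_near_of_lt_one (div_pos s0 hρ) ((div_le_one hρ).2 s1) t0 t1
  rw [lt_div_iff₀ hρ, pow_succ'] at k1
  rw [div_le_iff₀ hρ] at k2
  obtain ⟨-, -, a0, -, -, a1, -⟩ := h.upper_real (hp k) (hb k)
  refine (measure_mono (inter_subset_inter_right _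
    (ball_subset_closedBall.trans (closedBall_subset_closedBall k2)))).trans ?_
  rw [a0]
  exact ENNReal.ofReal_le_ofReal (by linarith [key k])

theorem density : ∃ c ε₀ : ℝ, 0 < c ∧ c ≤ 1 ∧ 0 < ε₀ ∧
    ∀ (Ω : Set ℂ) (ε : ℝ) (wk : Prop) (u : ℂ → ℝ) (K : Set ℂ), AM0 Ω ε wk u K →
      (∀ y r, 0 < r → closedBall y r ⊆ Ω → ε * √r ≤ ε₀) →
      (∀ y ∈ K, ∀ r, 0 < r → closedBall y r ⊆ Ω → 0 < μH[1] (K ∩ ball y r)) →
      AM Ω ε wk c u K := by
  obtain ⟨δ, ε₁, hδ, hε₁, H2⟩ := b2_iter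
  obtain ⟨τ, C, t0, t1, hC, H1⟩ := b2_step (lam := δ / 16) (by positivity)
  refine ⟨τ / 8, min ε₁ (δ * τ / (2 * C)), by positivity, by linarith,
    lt_min hε₁ (by positivity), fun Ω ε wk u K h hε hpos =>
      ⟨h, by positivity, by linarith, fun y hy r hr hB => ?_⟩⟩
  by_contra hn
  have hU := h.upper_real hr hB
  rw [hU.2.2.2.1, not_le, ENNReal.ofReal_lt_ofReal_iff (by positivity)] at hn
  have hr2 : 0 < r / 2 := by positivity
  refine (hpos y hy (r / 2) hr2 ((closedBall_subset_closedBall (by linarith)).trans hB)).ne'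
    (null_of_density inter_subset_left ?_ fun z hz => ?_)
  · refine (measure_mono (inter_subset_inter_right _ (ball_subset_ball (by linarith)))).trans_lt
      (hU.2.2.2.1.trans_lt ENNReal.ofReal_lt_top)
  · have hz' := mem_ball.1 hz.2
    have hBz : closedBall z (r / 2) ⊆ Ω := (closedBall_subset_closedBall' (by linarith)).trans hB
    have a1 := ((h.mono_real hr hB).1 z (r / 2) (ball_subset_ball' (by linarith))).2
    have h1 := H1 Ω ε wk u K h z (r / 2) hr2 hBz (by linarith)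
    obtain ⟨-, -, -, -, -, b1, b2, b3, b4⟩ := h.upper_real hr2 hBz
    have hρ : 0 < τ * (r / 2) := by positivity
    have h4 : C * (ε * √(r / 2)) * (r / 2) ≤ C * (δ * τ / (2 * C)) * (r / 2) := by
      have := (hε z (r / 2) hr2 hBz).trans (min_le_right _ _)
      gcongr
    have h5 : C * (δ * τ / (2 * C)) * (r / 2) = δ * τ * (r / 2) / 2 := by field_simp
    have h6 : δ / 16 * τ * D u K z (r / 2) ≤ δ / 16 * τ * (8 * (r / 2)) :=
      mul_le_mul_of_nonneg_left (by linarith) (by positivity)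
    have H := H2 Ω ε wk u K h (fun y r h1 h2 => (hε y r h1 h2).trans (min_le_left _ _)) z _ hρ
      ((closedBall_subset_closedBall (mul_le_of_le_one_left hr2.le t1.le)).trans hBz) (by linarith)
    filter_upwards [Ioo_mem_nhdsGT hρ] with s hs using H s hs.1 hs.2.le

end Vale.Agent.P128
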