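import Vale.Agent.P128.TC.Main

/-! P128 block B2: one step of the decay of the normalized energy in a ball with little length. -/

namespace Vale.Agent.P128

open MeasureTheory Set Metric Filter Topology
open scoped ENNReal

variable {Ω : Set ℂ} {ε : ℝ} {wk : Prop} {u : ℂ → ℝ} {K : Set ℂ} {y : ℂ} {t : ℝ}

theorem b2_meas (hK : IsClosed K) (y : ℂ) : MeasurableSet {s : ℝ | K ∩ sphere y s = ∅} := by
  have e : {s : ℝ | K ∩ sphere y s = ∅} =
      (fun s : ℝ => ((K ∩ sphere y s).encard : ℝ≥0∞)) ⁻¹' {0} := by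
    ext s
    simp
  rw [e]
  exact (eilenberg_sphere hK y).1 (measurableSet_singleton 0)

theorem b2_bad (h : AM0 Ω ε wk u K) (ht : 0 < t) (hB : closedBall y t ⊆ Ω) {a b : ℝ} (hb : b ≤ t) :
    volume (Ioo a b \ {s : ℝ | K ∩ sphere y s = ∅}) ≤ ENNReal.ofReal (len K y t) := by
  have hm := measurableSet_Ioo (a := a) (b := b) |>.diff (b2_meas h.closed y)
  rw [← (h.upper_real ht hB).2.2.2.1, ← setLIntegral_one]
  refine le_trans (setLIntegral_mono' hm fun s hs => ?_)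
    (((eilenberg_sphere h.closed y).2 _ hm).trans (measure_mono fun z hz => ⟨hz.1, ?_⟩))
  · have : (1 : ℕ∞) ≤ (K ∩ sphere y s).encard :=
      one_le_encard_iff_nonempty.2 (nonempty_iff_ne_empty.2 hs.2)
    exact_mod_cast this
  · exact mem_ball.2 (hz.2.1.2.trans_le hb)

theorem b2_exp {lam : ℝ} (hl : 0 < lam) : ∃ σ : ℝ, 0 < σ ∧ σ < 1 ∧
    Real.exp (-((1 - 1 / 4) / (1 / 2 + 1 / 100)) * (Real.log (1 / σ) - 1)) ≤ lam * σ := by
  have h0 := abs_nonneg (Real.log lam)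
  refine ⟨Real.exp (-(3 * |Real.log lam| + 6)), Real.exp_pos _,
    Real.exp_lt_one_iff.2 (by linarith), ?_⟩
  rw [one_div (Real.exp _), ← Real.exp_neg, Real.log_exp, neg_neg]
  conv_rhs => rw [← Real.exp_log hl, ← Real.exp_add, Real.log_exp]
  refine Real.exp_le_exp.2 ?_
  linarith [neg_abs_le (Real.log lam)]

theorem b2_decay {lam : ℝ} (hl : 0 < lam) : ∃ σ C : ℝ, 0 < σ ∧ σ < 1 ∧ 0 < C ∧
    ∀ (Ω : Set ℂ) (ε : ℝ) (wk : Prop) (u : ℂ → ℝ) (K : Set ℂ), AM0 Ω ε wk u K →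
    ∀ (y : ℂ) (t : ℝ), 0 < t → closedBall y t ⊆ Ω → len K y t ≤ σ / 4 * t →
      D u K y (σ * t) ≤ lam * σ * D u K y t + C * ε * t * √t := by
  obtain ⟨σ, s0, s1, hσ⟩ := b2_exp hl
  obtain ⟨C, hC, H⟩ := DI0 (η := 1 / 100) (by norm_num)
  refine ⟨σ, 4 * C, s0, s1, by positivity, fun Ω ε wk u K h y t ht hB hlen => ?_⟩
  have hU := h.upper_real ht hB
  have hε := h.eps
  have hD := hU.2.2.2.2.2.1
  have hm := b2_meas h.closed y
  have hst : 0 < σ * t := mul_pos s0 ht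
  have hbad : ∫⁻ s in Ioo (σ * t) t \ {s : ℝ | K ∩ sphere y s = ∅}, ENNReal.ofReal (1 / s) ≤
      ENNReal.ofReal 1 := by
    calc _ ≤ ∫⁻ _ in Ioo (σ * t) t \ {s : ℝ | K ∩ sphere y s = ∅}, ENNReal.ofReal (1 / (σ * t)) :=
          setLIntegral_mono' (measurableSet_Ioo.diff hm) fun s hs =>
            ENNReal.ofReal_le_ofReal (one_div_le_one_div_of_le hst hs.1.1.le)
      _ ≤ ENNReal.ofReal (1 / (σ * t)) * ENNReal.ofReal (len K y t) := by
          rw [setLIntegral_const]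
          exact mul_le_mul_right (b2_bad h ht hB le_rfl) _
      _ ≤ _ := by
          rw [← ENNReal.ofReal_mul (by positivity)]
          refine ENNReal.ofReal_le_ofReal ?_
          rw [one_div_mul_eq_div, div_le_one hst]
          linarith
  have hdi : ∀ᵐ s ∂(volume.restrict (Ioo (σ * t) t ∩ {s : ℝ | K ∩ sphere y s = ∅})),
      ENNReal.ofReal (D u K y s) ≤ ENNReal.ofReal ((1 / 2 + 1 / 100) * s) * Dp u K y s +
        ENNReal.ofReal (C * ε * s * √s) := by
    have h1 := ae_restrict_of_ae_restrict_of_subset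
      (show Ioo (σ * t) t ∩ {s : ℝ | K ∩ sphere y s = ∅} ⊆ Ioo 0 t from
        fun s hs => ⟨hst.trans hs.1.1, hs.1.2⟩) (H Ω ε wk u K h y t ht hB)
    filter_upwards [h1, ae_restrict_mem (measurableSet_Ioo.inter hm)] with s h2 h3 using h2 h3.2
  have h1 : 0 ≤ C * ε * t * √t := by positivity
  have h2 : 0 ≤ lam * σ * D u K y t := by positivity
  rcases T5 (m := 4) h.closed ht (by rw [hU.2.1]; exact ENNReal.ofReal_lt_top) s0 s1 (by norm_num)
    (mul_nonneg hC.le hε) (by norm_num) zero_le_one hm hbad hdi with h3 | h3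
  · linarith
  · linarith [mul_le_mul_of_nonneg_right hσ hD]

theorem b2_vol (h : AM0 Ω ε wk u K) (ht : 0 < t) (hB : closedBall y t ⊆ Ω) {b : ℝ} (hb0 : 0 < b)
    (hb : b ≤ t) (hlen : len K y t ≤ b / 4) :
    ENNReal.ofReal (b / 4) ≤ volume (Ioo (b / 2) b ∩ {s : ℝ | K ∩ sphere y s = ∅}) := by
  have h1 := (b2_bad h ht hB (a := b / 2) hb).trans (ENNReal.ofReal_le_ofReal hlen)
  have h2 := measure_inter_add_sdiff (μ := volume) (Ioo (b / 2) b) (b2_meas h.closed y)
  rw [Real.volume_Ioo, show b - b / 2 = b / 4 + b / 4 by ring,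
    ENNReal.ofReal_add (by positivity) (by positivity)] at h2
  exact ENNReal.le_of_add_le_add_right ENNReal.ofReal_ne_top (h2.ge.trans (add_le_add_right h1 _))

theorem b2_cut (h : AM0 Ω ε wk u K) (ht : 0 < t) (hB : closedBall y t ⊆ Ω) {b : ℝ} (hb0 : 0 < b)
    (hb : b ≤ t) (hlen : len K y t ≤ b / 4) :
    D u K y (b / 2) + lenc K y (b / 2) ≤ 4000 * D u K y b + ε * t * √t := by
  have hBb : closedBall y b ⊆ Ω := (closedBall_subset_closedBall hb).trans hB
  have hU := h.upper_real hb0 hBb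
  have hD := hU.2.2.2.2.2.1
  have hε := h.eps
  have hP := polar h.closed u y
  have hI : ∫⁻ s in Ioo (b / 2) b, Dp u K y s ≤ ENNReal.ofReal (D u K y b) := by
    rw [← hU.2.1, (hP.2.2 b).1]
    exact lintegral_mono_set (Ioo_subset_Ioo_left (by positivity))
  obtain ⟨s, ⟨⟨s1, s2⟩, s3⟩, -, s4⟩ := good_radius (P := fun _ => True) (by linarith) hD hP.1 hI
    (b2_meas h.closed y) (by positivity) (b2_vol h ht hB hb0 hb hlen) (Eventually.of_forall fun _ =>
      trivial)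
  have s0 : 0 < s := by linarith
  have hBs : closedBall y s ⊆ Ω := (closedBall_subset_closedBall s2.le).trans hBb
  have hV := h.upper_real s0 hBs
  have hM := h.mono_real s0 hBs
  have H := T6 h s0 hBs (P := ∅) (by rw [Finset.coe_empty]; exact s3.symm) (O := y)
    (mem_closedBall_self (by positivity))
  rw [hV.2.2.2.2.1, Finset.sum_empty, ENNReal.ofReal_zero, zero_add] at H
  have H2 := H.trans (add_le_add_left (mul_le_mul_right s4 _) _)
  rw [← ENNReal.ofReal_mul (by positivity), ← ENNReal.ofReal_add (by positivity) (by positivity),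
    ENNReal.ofReal_le_ofReal_iff (by positivity)] at H2
  have a1 := (hM.1 y (b / 2) (ball_subset_ball s1.le)).1
  have a2 := (hM.2.1 y (b / 2) (closedBall_subset_ball s1)).trans hV.2.2.2.2.2.2.2.1
  have a3 : 1000 * s * (D u K y b / (b / 4)) ≤ 4000 * D u K y b := by
    calc _ ≤ 1000 * b * (D u K y b / (b / 4)) := by gcongr
      _ = _ := by field_simp; ring
  have a4 : ε * s * √s ≤ ε * t * √t := by
    have : s ≤ t := s2.le.trans hb
    gcongr
  linarith

theorem b2_step {lam : ℝ} (hl : 0 < lam) : ∃ τ C : ℝ, 0 < τ ∧ τ < 1 ∧ 0 < C ∧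
    ∀ (Ω : Set ℂ) (ε : ℝ) (wk : Prop) (u : ℂ → ℝ) (K : Set ℂ), AM0 Ω ε wk u K →
    ∀ (y : ℂ) (t : ℝ), 0 < t → closedBall y t ⊆ Ω → len K y t ≤ τ / 4 * t →
      D u K y (τ * t) + lenc K y (τ * t) ≤ lam * τ * D u K y t + C * (ε * √t) * t := by
  obtain ⟨σ, C, s0, s1, hC, H⟩ := b2_decay (lam := lam / 8000) (by positivity)
  refine ⟨σ / 2, 4000 * C + 1, by positivity, by linarith, by positivity,
    fun Ω ε wk u K h y t ht hB hlen => ?_⟩
  have hst : 0 < σ * t := mul_pos s0 ht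
  have h1 := H Ω ε wk u K h y t ht hB (by linarith)
  have h2 := b2_cut h ht hB hst (by nlinarith) (by linarith)
  rw [show σ / 2 * t = σ * t / 2 by ring]
  linarith

end Vale.Agent.P128
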